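import Vale.Agent.P352X.R.KD.D
import Vale.Agent.P352L.R.KD.B
import Vale.Agent.P352L.Defs

/-!
# P352L, row KD: operators on test functions, compact supports in cut cones
-/

set_option linter.all false

noncomputable section

open Filter Topology
open Complex (I norm_I)
open scoped SchwartzMap
open UniformSpace (Completion)

namespace Vale.Agent.P352L.KDa

open Vale.Agent.P352X
export Vale.Agent.P352X.KDa (Adm barL ev_BS ev_barL gn_add gn_smul gn_sub gn_zero nx βL_apply)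
export Vale.Agent.P352X (abs_eta)

open Vale.Agent.P352 Vale.Agent.P352.GF Vale.Agent.P352.BW Vale.Agent.P352.H496
open Vale.Agent.P352.H246 (In)

section adm

variable {H : Type*} [NormedAddCommGroup H] {Φ Ψ : V → V → Sch → H}

variable [NormedSpace ℂ H]

end adm

variable {D : Type*} [NormedAddCommGroup D] [InnerProductSpace ℂ D] {c : Ctx D}

/-- the components of `T` on the vacuum -/
def t1 (c : Ctx D) (m n : Ix) : Sch →L[ℂ] Completion D where
  toFun f := (c.T m n (ev f) c.Q.vac : D)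
  map_add' f g := by
    have := c.Q.lin _ (ev f) (ev g) 1 c.Q.vac (c.Q.bose_fld _ (c.hT.bose m n)) ⟨f, rfl⟩ ⟨g, rfl⟩
    simp only [one_mul, one_smul] at this
    rw [← Completion.coe_add, ← this]
    rfl
  map_smul' a f := by
    have h := fun g : Sch => c.Q.lin _ (ev 0) (ev g) a c.Q.vac (c.Q.bose_fld _ (c.hT.bose m n))
      ⟨0, rfl⟩ ⟨g, rfl⟩
    have h0 := c.Q.lin _ (ev 0) (ev 0) 1 c.Q.vac (c.Q.bose_fld _ (c.hT.bose m n)) ⟨0, rfl⟩ ⟨0, rfl⟩
    have e0 : (fun x => ev 0 x + 1 * ev 0 x) = ev 0 := by ext; simp [ev]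
    have e1 : (fun x => ev 0 x + a * ev f x) = ev (a • f) := by ext; simp [ev]
    rw [e0, one_smul, left_eq_add] at h0
    rw [RingHom.id_apply, ← Completion.coe_smul, ← e1, h, h0, zero_add]
  cont := (Completion.continuous_coe D).comp (c.Q.cont _ _ (c.Q.bose_fld _ (c.hT.bose m n)))

/-- `T(h, k)(f) Ω` -/
def tau (c : Ctx D) (h k : V) : Sch →L[ℂ] Completion D :=
  ∑ m, ∑ n, ((eta m * h m * (eta n * k n) : ℝ) : ℂ) • t1 c m n

lemma tau_apply (h k : V) (f : Sch) : tau c h k f = c.Tv (hk h k (ev f)) := by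
  rw [Ctx.Tv, Ctx.Tf, ← Completion.coe_toComplL (𝕜 := ℂ)]
  simp only [tau, map_sum, ContinuousLinearMap.sum_apply, ContinuousLinearMap.smul_apply,
    ← map_smul]
  rfl

lemma adm_tau (c : Ctx D) : Adm fun h k f => tau c h k f := by
  choose C N hC hb using fun m n => ST.clm_sn_c (t1 c m n)
  refine ⟨Finset.univ.sup fun p : Ix × Ix => N p.1 p.2, ∑ m, ∑ n, C m n,
    Finset.sum_nonneg fun m _ => Finset.sum_nonneg fun n _ => hC m n, fun h k f => ?_⟩
  simp only [tau, ContinuousLinearMap.sum_apply, ContinuousLinearMap.smul_apply, Finset.sum_mul]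
  refine norm_sum_le_of_le _ fun m _ => norm_sum_le_of_le _ fun n _ => ?_
  rw [norm_smul, Complex.norm_real, Real.norm_eq_abs, abs_mul, abs_mul, abs_mul, abs_eta, abs_eta,
    one_mul, one_mul]
  have h1 := ST.sn_mono (Finset.le_sup (f := fun p : Ix × Ix => N p.1 p.2)
    (Finset.mem_univ (m, n))) f
  have := hC m n
  calc _ ≤ ‖h‖ * ‖k‖ * (C m n * _) := by
        gcongr
        exacts [norm_le_pi_norm h m, norm_le_pi_norm k n,
          (hb m n f).trans (mul_le_mul_of_nonneg_left h1 this)]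
    _ = _ := by ring

lemma gn_tau (G : GEN c) (h k : V) (f : Sch) :
    Gn (Bo c.Q) (tau c h k f) (nx (fun h k f => tau c h k f) h k f) := by
  simp only [nx, tau_apply, ev_BS, βL_apply]
  exact G.bo h k _ ⟨f, rfl⟩

lemma gn_nx {Φ Ψ : V → V → Sch → Completion D} (hΦ : ∀ h k f, Gn (Bo c.Q) (Φ h k f) (Ψ h k f))
    (h k : V) (f : Sch) : Gn (Bo c.Q) (nx Φ h k f) (nx Ψ h k f) :=
  gn_smul I (gn_sub (gn_sub (hΦ _ _ _) (hΦ _ _ _)) (hΦ _ _ _))

lemma pr_afs {M : VonNeumannAlgebra (Completion D)} {X X' : D → D} (h : T.Afs M X X') :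
    Pr M c.Om (X c.Q.vac : D) (X' c.Q.vac : D) := fun Z hZ => by
  rw [ContinuousLinearMap.star_eq_adjoint, ContinuousLinearMap.adjoint_inner_left]
  exact (h.2 Z hZ _ _).symm

lemma pr_tau (g : GRP c) {O : Set V} (h k : V) {f : Sch} (h1 : HasCompactSupport f)
    (h2 : tsupport f ⊆ O) : Pr (c.N O) c.Om (tau c h k f) (tau c h k (barL f)) := by
  have := pr_afs (c := c) (g.afft O (hk h k (ev f)) fun m n =>
    ⟨⟨((eta m * h m * (eta n * k n) : ℝ) : ℂ) • f, rfl⟩, h1.mul_left, (tsupport_mul_subset_right).trans h2⟩)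
  have e : (fun m n => bar (hk h k (ev f) m n)) = hk h k (ev (barL f)) := by
    funext m n x
    simp [bar, hk, ev_barL]
  rw [e] at this
  rw [tau_apply, tau_apply]
  exact this

/-- the graph of `(K, K ^ 2)` -/
def gr2 (c : Ctx D) : AddSubmonoid (Completion D × Completion D × Completion D) where
  carrier := {p | Gn c.SK p.1 p.2.1 ∧ Gn c.SK p.2.1 p.2.2}
  add_mem' h h' := ⟨gn_add h.1 h'.1, gn_add h.2 h'.2⟩
  zero_mem' := ⟨gn_zero, gn_zero⟩

lemma gr2_closed (g : GRP c) : IsClosed (gr2 c : Set (Completion D × Completion D × Completion D)) :=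
  ((ugS g).closed.preimage (f := fun p : Completion D × Completion D × Completion D =>
    (p.1, p.2.1)) (by fun_prop)).inter ((ugS g).closed.preimage continuous_snd)

/-- compact supports in a cut cone -/
theorem two_loc (g : GRP c) (G : GEN c) {r : ℝ} (hr : 0 < r) : ∃ (m : ℕ) (C : ℝ), 0 ≤ C ∧
    ∀ h k (f : Sch), HasCompactSupport f → tsupport f ⊆ Rc r 0 →
      ∃ y, (tau c h k f, y) ∈ gr2 c ∧ ‖y‖ ≤ C * ‖h‖ * ‖k‖ * ST.sn V ℂ m f := by
  obtain ⟨C, hC, hb⟩ := kd_two g hr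
  have a0 := adm_tau c
  obtain ⟨m, C', hC', hb'⟩ := (((a0.addn (a0.comp 1 1 barL)).addn a0.nx).addn
    (a0.nx.comp 1 1 barL)).addn a0.nx.nx
  refine ⟨m, C * C', by positivity, fun h k f h1 h2 => ?_⟩
  obtain ⟨d1, d2, b1, b2⟩ := hb _ _ _ _ _ (pr_tau g h k h1 h2) (gn_tau G h k f)
    (gn_tau G h k (barL f)) (gn_nx (gn_tau G) h k f)
  refine ⟨(_, _), ⟨d1.gn', d2.gn'⟩, ?_⟩
  have b3 := hb' h k f
  simp only [Real.norm_eq_abs, ContinuousLinearMap.one_apply] at b3
  rw [abs_of_nonneg (by positivity), abs_of_nonneg (by positivity), abs_of_nonneg (by positivity),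
    abs_of_nonneg (by positivity)] at b3
  have b4 := mul_le_mul_of_nonneg_left b3 hC
  rw [Prod.norm_def, max_le_iff]
  exact ⟨(b1.trans b4).trans_eq (by ring), (b2.trans b4).trans_eq (by ring)⟩

end Vale.Agent.P352L.KDa

end
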